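import Vale.Agent.P211W98.LC
import Vale.Agent.P244Z.GeoDefs

/-! The Levi-Civita connection and its Ricci tensor in a chart. -/

set_option maxSynthPendingDepth 3
set_option linter.unusedSectionVars false

namespace Vale.Agent.P244I78

open scoped Manifold ContDiff Topology
open Bundle Filter VectorField Vale.Agent.P211 Vale.Agent.P211.NN Vale.Agent.P211Z
open Vale.Agent.P211W Vale.Agent.P244Z

noncomputable section

variable {n : ℕ} {M : Type} [TopologicalSpace M] [ChartedSpace (Geo.Euc n) M]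
  [IsManifold (𝓡 n) ∞ M] {e : OpenPartialHomeomorph M (Geo.Euc n)} {x : M}

/-- the constant field `e_i` of the model space -/
def cst (i : Fin n) : Field (Geo.Euc n) (Geo.Euc n) := fun _ => EuclideanSpace.single i (1 : ℝ)

/-- the coordinate field `∂_i` of the chart `e` -/
def cf (e : OpenPartialHomeomorph M (Geo.Euc n)) (i : Fin n) : Field (Geo.Euc n) M :=
  pull e (cst i)

theorem ld (he : e ∈ atlas (Geo.Euc n) M) (hx : x ∈ e.source) :
    IsLocalDiffeomorphAt (𝓡 n) (𝓡 n) ∞ e x := by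
  have hm : e ∈ IsManifold.maximalAtlas (𝓡 n) ∞ M := IsManifold.subset_maximalAtlas he
  exact ⟨{ toPartialEquiv := e.toPartialEquiv
           open_source := e.open_source
           open_target := e.open_target
           contMDiffOn_toFun := contMDiffOn_of_mem_maximalAtlas hm
           contMDiffOn_invFun := contMDiffOn_symm_of_mem_maximalAtlas hm }, hx, fun _ _ => rfl⟩

theorem sm_cst (i : Fin n) (y : Geo.Euc n) : Sm (cst i) y :=
  (contMDiffAt_vectorSpace_iff_contDiffAt (V := cst i)).mpr contDiffAt_const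

theorem sm_cf (he : e ∈ atlas (Geo.Euc n) M) (hx : x ∈ e.source) (i : Fin n) : Sm (cf e i) x :=
  Sm.pull (ld he hx) (sm_cst i _)

theorem dm_cf (he : e ∈ atlas (Geo.Euc n) M) (hx : x ∈ e.source) (i : Fin n) :
    dm (Geo.Euc n) e x (cf e i x) = EuclideanSpace.single i (1 : ℝ) :=
  dm_pull (ld he hx) _

theorem brk_cf (he : e ∈ atlas (Geo.Euc n) M) (hx : x ∈ e.source) (i j : Fin n) :
    mlieBracket (𝓡 n) (cf e i) (cf e j) x = 0 := by
  unfold cf
  rw [pull_bracket (ld he hx) (sm_cst i _).md (sm_cst j _).md]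
  have h : mlieBracket (𝓡 n) (cst i) (cst j) (e x) = 0 := by
    rw [← mlieBracketWithin_univ, mlieBracketWithin_eq_lieBracketWithin]
    change lieBracketWithin ℝ (fun _ : Geo.Euc n => EuclideanSpace.single i (1 : ℝ))
      (fun _ => EuclideanSpace.single j (1 : ℝ)) Set.univ (e x) = (0 : Geo.Euc n)
    simp [lieBracketWithin]
  change (dm (Geo.Euc n) e x).inverse (mlieBracket (𝓡 n) (cst i) (cst j) (e x)) = 0
  rw [h, map_zero]

theorem cf_eq (he : e ∈ atlas (Geo.Euc n) M) {y : Geo.Euc n} (hy : y ∈ e.target) (i : Fin n) :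
    cf e i (e.symm y) = Geo.push (𝓡 n) e.symm y (EuclideanSpace.single i 1) := by
  have hd := mdifferentiable_of_mem_atlas (I := 𝓡 n) he
  have h1 := hd.comp_symm_deriv hy
  have h2 := inv_of_ld (ld he (e.map_target hy))
  refine h2.inverse_apply_eq.mpr ?_
  exact (congrArg (fun L : Geo.Euc n →L[ℝ] Geo.Euc n => L (EuclideanSpace.single i 1)) h1).symm

theorem inChart_eq (he : e ∈ atlas (Geo.Euc n) M) (hx : x ∈ e.source) (g : Geo.Tensor n M)
    (i j : Fin n) : Geo.inChart g e (e x) i j = g x (cf e i x) (cf e j x) := by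
  have h : Geo.inChart g e (e x) i j
      = g (e.symm (e x)) (cf e i (e.symm (e x))) (cf e j (e.symm (e x))) := by
    rw [cf_eq he (e.map_source hx), cf_eq he (e.map_source hx)]
    rfl
  rw [h, e.left_inv hx]

theorem d_cf (he : e ∈ atlas (Geo.Euc n) M) (hx : x ∈ e.source) {f : Geo.Euc n → ℝ} {F : M → ℝ}
    (hf : DifferentiableAt ℝ f (e x)) (hF : ∀ z ∈ e.source, F z = f (e z)) (i : Fin n) :
    MDifferentiableAt (𝓡 n) 𝓘(ℝ) F x ∧ mvfderiv (𝓡 n) F x (cf e i x) = Geo.pd i f (e x) := by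
  have h1 : F =ᶠ[𝓝 x] f ∘ e := by
    filter_upwards [e.open_source.mem_nhds hx] with z hz using hF z hz
  have h2 : MDifferentiableAt (𝓡 n) (𝓡 n) e x := (ld he hx).mdifferentiableAt (by simp)
  have h3 : HasMFDerivAt (𝓡 n) 𝓘(ℝ) F x
      ((fderiv ℝ f (e x) : Geo.Euc n →L[ℝ] ℝ).comp (dm (Geo.Euc n) e x)) :=
    (hf.hasFDerivAt.hasMFDerivAt.comp x h2.hasMFDerivAt).congr_of_eventuallyEq h1
  refine ⟨h3.mdifferentiableAt, ?_⟩
  have h4 : mvfderiv (𝓡 n) F x (cf e i x) = fderiv ℝ f (e x) (dm (Geo.Euc n) e x (cf e i x)) := by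
    unfold mvfderiv
    rw [h3.mfderiv]
    rfl
  rw [h4, dm_cf he hx]
  rfl

theorem span_cf (he : e ∈ atlas (Geo.Euc n) M) (hx : x ∈ e.source) (v : TangentSpace (𝓡 n) x) :
    v = ∑ k, (show Geo.Euc n from dm (Geo.Euc n) e x v) k • cf e k x := by
  have h2 := inv_of_ld (ld he hx)
  apply h2.injective
  rw [map_sum]
  simp only [map_smul, dm_cf he hx]
  have h := ((EuclideanSpace.basisFun (Fin n) ℝ).sum_repr
    (show Geo.Euc n from dm (Geo.Euc n) e x v)).symm
  simp only [EuclideanSpace.basisFun_apply, EuclideanSpace.basisFun_repr] at h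
  exact h

theorem trace_cf (he : e ∈ atlas (Geo.Euc n) M) (hx : x ∈ e.source)
    (A : TangentSpace (𝓡 n) x →ₗ[ℝ] TangentSpace (𝓡 n) x) (c : Fin n → Fin n → ℝ)
    (hA : ∀ k, A (cf e k x) = ∑ m, c k m • cf e m x) :
    LinearMap.trace ℝ _ A = ∑ k, c k k := by
  obtain ⟨L, hL⟩ := inv_of_ld (ld he hx)
  let b : Module.Basis (Fin n) ℝ (TangentSpace (𝓡 n) x) :=
    (EuclideanSpace.basisFun (Fin n) ℝ).toBasis.map L.symm.toLinearEquiv
  have hb : ∀ k, b k = cf e k x := by
    intro k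
    have h := dm_cf he hx k
    rw [← hL] at h
    have h' : b k = L.symm (EuclideanSpace.basisFun (Fin n) ℝ k) := rfl
    rw [h', EuclideanSpace.basisFun_apply, ← h]
    exact L.symm_apply_apply _
  rw [LinearMap.trace_eq_matrix_trace ℝ b, Matrix.trace]
  refine Finset.sum_congr rfl fun k _ => ?_
  rw [Matrix.diag_apply, LinearMap.toMatrix_apply, hb, hA]
  simp only [← hb]
  rw [b.repr_sum_self]

/-! ### covariant derivatives of sums -/

theorem cov_sum (cov : CovariantDerivative (𝓡 n) (Geo.Euc n) (TangentSpace (𝓡 n) : M → Type))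
    {ι : Type} (s : Finset ι) (σ : ι → Field (Geo.Euc n) M) (h : ∀ l, Md (σ l) x) :
    Md (∑ l ∈ s, σ l) x ∧ cov (∑ l ∈ s, σ l) x = ∑ l ∈ s, cov (σ l) x := by
  classical
  induction s using Finset.induction_on with
  | empty =>
    rw [Finset.sum_empty, Finset.sum_empty]
    exact ⟨mdifferentiableAt_zeroSection .., cov.isCovariantDerivativeOnUniv.zero⟩
  | insert a s ha ih =>
    rw [Finset.sum_insert ha, Finset.sum_insert ha]
    exact ⟨mdifferentiableAt_add_section (h a) ih.1, by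
      rw [cov.isCovariantDerivativeOnUniv.add (h a) ih.1, ih.2]⟩

theorem cov_congr (cov : CovariantDerivative (𝓡 n) (Geo.Euc n) (TangentSpace (𝓡 n) : M → Type))
    {σ τ : Field (Geo.Euc n) M} (h : Md τ x) (hστ : ∀ᶠ y in 𝓝 x, σ y = τ y) :
    cov σ x = cov τ x :=
  cov.isCovariantDerivativeOnUniv.congr_of_eventuallyEq (h.congr hστ) h univ_mem hστ

/-! ### smoothness of the Christoffel symbols -/

theorem contDiffAt_pd {f : Geo.Euc n → ℝ} {y : Geo.Euc n} (hf : ContDiffAt ℝ ∞ f y) (i : Fin n) :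
    ContDiffAt ℝ ∞ (Geo.pd i f) y :=
  (hf.fderiv_right (m := ∞) (by simp)).clm_apply contDiffAt_const

theorem contDiffAt_det {G : Geo.Euc n → Matrix (Fin n) (Fin n) ℝ} {y : Geo.Euc n}
    (hG : ∀ i j, ContDiffAt ℝ ∞ (fun z => G z i j) y) :
    ContDiffAt ℝ ∞ (fun z => (G z).det) y := by
  simp only [Matrix.det_apply']
  exact ContDiffAt.sum fun σ _ => contDiffAt_const.mul (contDiffAt_prod fun i _ => hG _ _)

theorem contDiffAt_inv {G : Geo.Euc n → Matrix (Fin n) (Fin n) ℝ} {y : Geo.Euc n}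
    (hG : ∀ i j, ContDiffAt ℝ ∞ (fun z => G z i j) y) (hd : (G y).det ≠ 0) (k l : Fin n) :
    ContDiffAt ℝ ∞ (fun z => (G z)⁻¹ k l) y := by
  have h1 : ContDiffAt ℝ ∞ (fun z => (G z).adjugate k l) y := by
    simp only [Matrix.adjugate_apply]
    refine contDiffAt_det fun a b => ?_
    by_cases hab : a = l
    · simp only [Matrix.updateRow_apply, if_pos hab]
      exact contDiffAt_const
    · simp only [Matrix.updateRow_apply, if_neg hab]
      exact hG a b
  have h2 := ((contDiffAt_det hG).inv hd).mul h1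
  refine h2.congr_of_eventuallyEq (Eventually.of_forall fun z => ?_)
  simp only [Matrix.inv_def, Ring.inverse_eq_inv', Matrix.smul_apply, smul_eq_mul, Pi.inv_apply]

theorem contDiffAt_chr {G : Geo.Euc n → Matrix (Fin n) (Fin n) ℝ} {y : Geo.Euc n}
    (hG : ∀ i j, ContDiffAt ℝ ∞ (fun z => G z i j) y) (hd : (G y).det ≠ 0) (k i j : Fin n) :
    ContDiffAt ℝ ∞ (fun z => Geo.christoffel G z k i j) y :=
  contDiffAt_const.mul (ContDiffAt.sum fun l _ => (contDiffAt_inv hG hd k l).mul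
    (((contDiffAt_pd (hG j l) i).add (contDiffAt_pd (hG i l) j)).sub (contDiffAt_pd (hG i j) l)))

/-! ### the Levi-Civita connection in a chart -/

variable [RiemannianBundle fun p : M => TangentSpace (𝓡 n) p]
  [IsContMDiffRiemannianBundle (𝓡 n) ∞ (Geo.Euc n) fun p : M => TangentSpace (𝓡 n) p]

/-- the metric as a tensor -/
def gT (n : ℕ) (M : Type) [TopologicalSpace M] [ChartedSpace (Geo.Euc n) M]
    [RiemannianBundle fun p : M => TangentSpace (𝓡 n) p] : Geo.Tensor n M :=
  fun _ v w => inner ℝ v w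

theorem gT_cf (he : e ∈ atlas (Geo.Euc n) M) (hx : x ∈ e.source) (i j : Fin n) :
    inner ℝ (cf e i x) (cf e j x) = Geo.inChart (gT n M) e (e x) i j :=
  (inChart_eq he hx (gT n M) i j).symm

theorem sm_G (he : e ∈ atlas (Geo.Euc n) M) (hx : x ∈ e.source) (i j : Fin n) :
    ContDiffAt ℝ ∞ (fun z => Geo.inChart (gT n M) e z i j) (e x) := by
  have hm : e ∈ IsManifold.maximalAtlas (𝓡 n) ∞ M := IsManifold.subset_maximalAtlas he
  have h1 : ContMDiffAt (𝓡 n) 𝓘(ℝ) ∞ (fun z => inner ℝ (cf e i z) (cf e j z)) (e.symm (e x)) := by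
    rw [e.left_inv hx]
    exact ContMDiffAt.inner_bundle (F := Geo.Euc n) (E := fun p : M => TangentSpace (𝓡 n) p)
      (sm_cf he hx i) (sm_cf he hx j)
  have ht := e.open_target.mem_nhds (e.map_source hx)
  have h2 : ContMDiffAt (𝓡 n) (𝓡 n) ∞ e.symm (e x) :=
    (contMDiffOn_symm_of_mem_maximalAtlas hm).contMDiffAt ht
  refine (h1.comp (e x) h2).contDiffAt.congr_of_eventuallyEq ?_
  filter_upwards [ht] with z hz
  have h := gT_cf he (e.map_target hz) i j
  rw [e.right_inv hz] at h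
  exact h.symm

theorem inner_span (he : e ∈ atlas (Geo.Euc n) M) (hx : x ∈ e.source) (c : Fin n → ℝ)
    (l : Fin n) : inner ℝ (∑ k, c k • cf e k x) (cf e l x)
      = ∑ k, c k * Geo.inChart (gT n M) e (e x) k l := by
  rw [sum_inner]
  exact Finset.sum_congr rfl fun k _ => by rw [real_inner_smul_left, gT_cf he hx]

theorem ext_cf (he : e ∈ atlas (Geo.Euc n) M) (hx : x ∈ e.source) {v w : TangentSpace (𝓡 n) x}
    (h : ∀ l, inner ℝ v (cf e l x) = inner ℝ w (cf e l x)) : v = w := by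
  refine ext_inner_right ℝ fun u => ?_
  rw [span_cf he hx u, inner_sum, inner_sum]
  exact Finset.sum_congr rfl fun k _ => by rw [real_inner_smul_right, real_inner_smul_right, h]

theorem det_G (he : e ∈ atlas (Geo.Euc n) M) (hx : x ∈ e.source) :
    (Geo.inChart (gT n M) e (e x)).det ≠ 0 := by
  intro hd
  obtain ⟨c, hc, h0⟩ := Matrix.exists_vecMul_eq_zero_iff.mpr hd
  have h1 : ∑ k, c k • cf e k x = 0 := by
    refine ext_cf he hx fun l => ?_
    rw [inner_span he hx, inner_zero_left]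
    exact congrFun h0 l
  have h2 := congrArg (dm (Geo.Euc n) e x) h1
  rw [map_sum, map_zero] at h2
  simp only [map_smul, dm_cf he hx] at h2
  have h3 : ∑ k, c k • (EuclideanSpace.basisFun (Fin n) ℝ).toBasis k = 0 := by
    simp only [OrthonormalBasis.coe_toBasis, EuclideanSpace.basisFun_apply]
    exact h2
  exact hc (funext (Fintype.linearIndependent_iff.mp
    (EuclideanSpace.basisFun (Fin n) ℝ).toBasis.linearIndependent c h3))

theorem symm_G (he : e ∈ atlas (Geo.Euc n) M) (hx : x ∈ e.source) (i j : Fin n) :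
    Geo.inChart (gT n M) e (e x) i j = Geo.inChart (gT n M) e (e x) j i := by
  rw [← gT_cf he hx, ← gT_cf he hx, real_inner_comm]

theorem lower {G : Matrix (Fin n) (Fin n) ℝ} (hd : G.det ≠ 0) (hs : ∀ i j, G i j = G j i)
    (a : Fin n → ℝ) (l : Fin n) : ∑ k, (∑ m, G⁻¹ k m * a m) * G k l = a l := by
  have h : G.mulVec (G⁻¹.mulVec a) = a := by
    rw [Matrix.mulVec_mulVec, Matrix.mul_nonsing_inv G (isUnit_iff_ne_zero.mpr hd),
      Matrix.one_mulVec]
  rw [← congrFun h l]
  exact Finset.sum_congr rfl fun k _ => by rw [mul_comm, hs k l]; rfl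

variable {cov : CovariantDerivative (𝓡 n) (Geo.Euc n) (TangentSpace (𝓡 n) : M → Type)}

theorem dg_cf (he : e ∈ atlas (Geo.Euc n) M) (hx : x ∈ e.source) (i j l : Fin n) :
    dg (cf e i) (cf e j) (cf e l) x
      = Geo.pd i (fun z => Geo.inChart (gT n M) e z j l) (e x) :=
  (d_cf he hx ((sm_G he hx j l).differentiableAt (by simp)) (fun _ hz => gT_cf he hz j l) i).2

theorem bg_cf (he : e ∈ atlas (Geo.Euc n) M) (hx : x ∈ e.source) (i j l : Fin n) :
    bg (cf e i) (cf e j) (cf e l) x = 0 := by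
  unfold bg
  rw [brk_cf he hx, inner_zero_left]

theorem cov_cf (hc : IsLeviCivita cov) (he : e ∈ atlas (Geo.Euc n) M) (hx : x ∈ e.source)
    (i j : Fin n) : cov (cf e j) x (cf e i x)
      = ∑ k, Geo.christoffel (Geo.inChart (gT n M) e) (e x) k i j • cf e k x := by
  refine ext_cf he hx fun l => ?_
  rw [koszul hc.torsion hc.metric (sm_cf he hx i).md (sm_cf he hx j).md (sm_cf he hx l).md,
    inner_span he hx]
  unfold kz Geo.christoffel
  rw [dg_cf he hx, dg_cf he hx, dg_cf he hx, bg_cf he hx, bg_cf he hx, bg_cf he hx]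
  simp only [mul_assoc]
  rw [← Finset.mul_sum, lower (det_G he hx) (symm_G he hx)]
  ring

theorem cov2_cf (hc : IsLeviCivita cov) (he : e ∈ atlas (Geo.Euc n) M) (hx : x ∈ e.source)
    (k i j : Fin n) {W : Field (Geo.Euc n) M}
    (hW : ∀ᶠ q in 𝓝 x, W q = cov (cf e j) q (cf e i q)) :
    cov W x (cf e k x) = ∑ m, (Geo.pd k (fun z =>
      Geo.christoffel (Geo.inChart (gT n M) e) z m i j) (e x) +
        ∑ l, Geo.christoffel (Geo.inChart (gT n M) e) (e x) m k l *
          Geo.christoffel (Geo.inChart (gT n M) e) (e x) l i j) • cf e m x := by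
  let Γ := Geo.christoffel (Geo.inChart (gT n M) e)
  have hd := fun l => d_cf he hx (F := fun q => Γ (e q) l i j) (f := fun z => Γ z l i j)
    ((contDiffAt_chr (sm_G he hx) (det_G he hx) l i j).differentiableAt (by simp))
    (fun _ _ => rfl) k
  have hs := cov_sum cov Finset.univ (fun l => (fun q => Γ (e q) l i j) • cf e l)
    fun l => (hd l).1.smul_section (sm_cf he hx l).md
  have h1 : cov W x = cov (∑ l, (fun q => Γ (e q) l i j) • cf e l) x := by
    refine cov_congr cov hs.1 ?_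
    filter_upwards [hW, e.open_source.mem_nhds hx] with q h1 h2
    rw [h1, cov_cf hc he h2, Finset.sum_apply]
    rfl
  rw [h1, hs.2, ContinuousLinearMap.sum_apply]
  have h2 : ∀ l, cov ((fun q => Γ (e q) l i j) • cf e l) x (cf e k x)
      = Geo.pd k (fun z => Γ z l i j) (e x) • cf e l x
        + ∑ m, (Γ (e x) m k l * Γ (e x) l i j) • cf e m x := by
    intro l
    rw [cov.isCovariantDerivativeOnUniv.leibniz (sm_cf he hx l).md (hd l).1, add_apply,
      smul_apply, ContinuousLinearMap.smulRight_apply, (hd l).2, cov_cf hc he hx, add_comm,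
      Finset.smul_sum]
    refine congrArg _ (Finset.sum_congr rfl fun m _ => ?_)
    rw [smul_smul, mul_comm]
  simp only [h2, add_smul, Finset.sum_add_distrib, Finset.sum_smul]
  rw [Finset.sum_comm]

theorem ricci_cf [T2Space M] (hc : IsLeviCivita cov) (he : e ∈ atlas (Geo.Euc n) M)
    (hx : x ∈ e.source)
    (R : TangentSpace (𝓡 n) x → TangentSpace (𝓡 n) x → TangentSpace (𝓡 n) x →
      TangentSpace (𝓡 n) x)
    (hR : ∀ X Y Z : VF (Geo.Euc n) M, R (X x) (Y x) (Z x) =
      cov (fun q => cov Z q (Y q)) x (X x) - cov (fun q => cov Z q (X q)) x (Y x) -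
        cov Z x (mlieBracket (𝓡 n) X Y x))
    (i j : Fin n) (A : TangentSpace (𝓡 n) x →ₗ[ℝ] TangentSpace (𝓡 n) x)
    (hA : ∀ u, A u = R u (cf e i x) (cf e j x)) :
    LinearMap.trace ℝ _ A = Geo.ricci (Geo.inChart (gT n M) e) (e x) i j := by
  have hU := e.open_source.mem_nhds hx
  choose X hX using fun k => cut_section (E := Geo.Euc n) hU (σ := cf e k)
    fun y hy => (sm_cf he hy k).contMDiffWithinAt
  have hW : ∀ a b, ∀ᶠ q in 𝓝 x, cov (X b) q (X a q) = cov (cf e b) q (cf e a q) := by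
    intro a b
    filter_upwards [hX a, (hX b).eventually_nhds, hU] with q h1 h2 h3
    rw [h1, cov_congr cov (sm_cf he h3 b).md h2]
  have hB : ∀ a b, mlieBracket (𝓡 n) (X a) (X b) x = 0 := fun a b => by
    rw [Filter.EventuallyEq.mlieBracket_vectorField_eq (hX a) (hX b), brk_cf he hx]
  let Γ := Geo.christoffel (Geo.inChart (gT n M) e)
  rw [trace_cf he hx A (fun k m => (Geo.pd k (fun z => Γ z m i j) (e x) +
    ∑ l, Γ (e x) m k l * Γ (e x) l i j) - (Geo.pd i (fun z => Γ z m k j) (e x) +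
      ∑ l, Γ (e x) m i l * Γ (e x) l k j))]
  · unfold Geo.ricci
    rw [← Finset.sum_add_distrib]
    refine Finset.sum_congr rfl fun k _ => ?_
    rw [Finset.sum_sub_distrib]
    ring
  · intro k
    have h := hR (X k) (X i) (X j)
    rw [hB, map_zero, sub_zero, (hX k).self_of_nhds, (hX i).self_of_nhds, (hX j).self_of_nhds,
      cov2_cf hc he hx k i j (hW i j), cov2_cf hc he hx i k j (hW k j)] at h
    rw [hA, h, ← Finset.sum_sub_distrib]
    exact Finset.sum_congr rfl fun m _ => (sub_smul _ _ _).symm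

theorem scalar_cf (he : e ∈ atlas (Geo.Euc n) M) (hx : x ∈ e.source)
    (A : TangentSpace (𝓡 n) x →ₗ[ℝ] TangentSpace (𝓡 n) x) (r : Fin n → Fin n → ℝ)
    (hA : ∀ i j, inner ℝ (A (cf e i x)) (cf e j x) = r i j) :
    LinearMap.trace ℝ _ A = ∑ i, ∑ j, (Geo.inChart (gT n M) e (e x))⁻¹ i j * r i j := by
  rw [trace_cf he hx A (fun k m => ∑ j, (Geo.inChart (gT n M) e (e x))⁻¹ m j * r k j)]
  intro k
  refine ext_cf he hx fun l => ?_
  rw [hA, inner_span he hx, lower (det_G he hx) (symm_G he hx)]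

end

end Vale.Agent.P244I78
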