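import Mathlib.Geometry.Manifold.VectorBundle.CovariantDerivative.Torsion
import Mathlib.Geometry.Manifold.VectorBundle.CovariantDerivative.Metric
import Mathlib.Geometry.Manifold.Riemannian.Basic
import Mathlib.Geometry.Manifold.Instances.Real
import Mathlib.LinearAlgebra.Trace

/-! Levi-Civita connection, Ricci and scalar curvature, Ricci flows. -/

namespace Vale.Agent.P244I

open scoped Manifold ContDiff
open Bundle Set VectorField

noncomputable section

/-- Euclidean `n`-space. -/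
abbrev Euc (n : ℕ) : Type := EuclideanSpace ℝ (Fin n)

variable (n : ℕ) {M : Type} [TopologicalSpace M] [ChartedSpace (Euc n) M]

/-- the tangent space at `x` -/
abbrev Tan (x : M) : Type := TangentSpace (𝓡 n) x

variable (M) [IsManifold (𝓡 n) ∞ M]

/-- smooth Riemannian metrics -/
abbrev Met : Type := ContMDiffRiemannianMetric (𝓡 n) ∞ (Euc n) (Tan n : M → Type)

/-- connections on the tangent bundle; `cov Y x v` is `∇_v Y` -/
abbrev Conn : Type := CovariantDerivative (𝓡 n) (Euc n) (Tan n : M → Type)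

/-- smooth vector fields -/
abbrev Vec : Type := Cₛ^∞⟮𝓡 n; Euc n, (Tan n : M → Type)⟯

/-- tensors of type `(1,3)` -/
abbrev Curv : Type := (x : M) → Tan n x →ₗ[ℝ] Tan n x →ₗ[ℝ] Tan n x →ₗ[ℝ] Tan n x

variable {n M}

/-- `cov` is a Levi-Civita connection of `g`: smooth, torsion free, compatible with `g`. -/
structure IsLeviCivita (g : Met n M) (cov : Conn n M) : Prop where
  smooth : cov.ContMDiffCovariantDerivative ∞
  torsion : cov.torsion = 0
  metric : letI : RiemannianBundle (Tan n : M → Type) := ⟨g.toRiemannianMetric⟩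
    CovariantDerivative.IsMetricCompatible (V := (Tan n : M → Type)) cov

/-- `R` is the curvature tensor `R(X,Y)Z = ∇_X ∇_Y Z - ∇_Y ∇_X Z - ∇_[X,Y] Z` of `cov`. -/
def IsCurv (cov : Conn n M) (R : Curv n M) : Prop :=
  ∀ (X Y Z : Vec n M) (x : M), R x (X x) (Y x) (Z x) =
    cov (fun q => cov Z q (Y q)) x (X x) - cov (fun q => cov Z q (X q)) x (Y x) -
      cov Z x (mlieBracket (𝓡 n) X Y x)

/-- `Ric` is the Ricci tensor of `g`: `Ric(v,w)` is the trace of `u ↦ R(u,v)w`, where `R` is the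
curvature tensor of the Levi-Civita connection. -/
def IsRic (g : Met n M) (Ric : (x : M) → Tan n x → Tan n x → ℝ) : Prop :=
  ∃ (cov : Conn n M) (R : Curv n M), IsLeviCivita g cov ∧ IsCurv cov R ∧
    ∀ x v w, Ric x v w = LinearMap.trace ℝ _ (((R x).flip v).flip w)

/-- `S = tr_g Ric` is the scalar curvature of `g`: the trace of the endomorphism `A` with
`g(A v, w) = Ric(v, w)`. -/
def IsScal (g : Met n M) (S : M → ℝ) : Prop :=
  ∃ (Ric : (x : M) → Tan n x → Tan n x → ℝ) (A : (x : M) → Tan n x →ₗ[ℝ] Tan n x), IsRic g Ric ∧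
    (∀ x v w, g.inner x (A x v) w = Ric x v w) ∧ ∀ x, S x = LinearMap.trace ℝ _ (A x)

/-- `g t`, `0 ≤ t < T`, is a smooth Ricci flow: `(t, x) ↦ g(t)_x` is a smooth map from
`[0,T) × M` to the bundle of bilinear forms, and `∂_t g = -2 Ric`. -/
structure IsRicciFlow (g : ℝ → Met n M) (T : ℝ) : Prop where
  smooth : ContMDiffOn (𝓘(ℝ).prod (𝓡 n)) ((𝓡 n).prod 𝓘(ℝ, Euc n →L[ℝ] Euc n →L[ℝ] ℝ)) ∞
    (fun p : ℝ × M => TotalSpace.mk' (Euc n →L[ℝ] Euc n →L[ℝ] ℝ)
      (E := fun x : M => Tan n x →L[ℝ] Tan n x →L[ℝ] ℝ) p.2 ((g p.1).inner p.2)) (Ico 0 T ×ˢ univ)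
  flow : ∀ t ∈ Ico 0 T, ∃ Ric, IsRic (g t) Ric ∧
    ∀ x v w, HasDerivWithinAt (fun s => (g s).inner x v w) (-2 * Ric x v w) (Ico 0 T) t

/-- `sup |R|` over `M × [0,T)` is finite. -/
def BoundedScal (g : ℝ → Met n M) (T : ℝ) : Prop :=
  ∃ C : ℝ, ∀ t ∈ Ico 0 T, ∃ S, IsScal (g t) S ∧ ∀ x, |S x| ≤ C

/-- The flow `g` on `[0,T)` extends past `T`. -/
def ExtendsPast (g : ℝ → Met n M) (T : ℝ) : Prop :=
  ∃ ε > 0, ∃ g' : ℝ → Met n M, IsRicciFlow g' (T + ε) ∧ ∀ t ∈ Ico 0 T, g' t = g t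

/-- The extension conjecture for closed connected manifolds of dimension `n`. -/
def Conj (n : ℕ) : Prop :=
  ∀ (M : Type) [TopologicalSpace M] [T2Space M] [CompactSpace M] [ConnectedSpace M]
    [ChartedSpace (Euc n) M] [IsManifold (𝓡 n) ∞ M] (T : ℝ) (g : ℝ → Met n M),
    0 < T → IsRicciFlow g T → BoundedScal g T → ExtendsPast g T

/-- Q1: the conjecture holds in every dimension `n ≥ 4`. -/
def Q1 : Prop := ∀ n ≥ 4, Conj n

/-- On a Hausdorff manifold every metric has a Levi-Civita connection, unique on smooth fields,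
which has exactly one curvature tensor, and exactly one Ricci tensor and scalar curvature. -/
def WellDefined : Prop :=
  ∀ (n : ℕ) (M : Type) [TopologicalSpace M] [T2Space M] [ChartedSpace (Euc n) M]
    [IsManifold (𝓡 n) ∞ M] (g : Met n M),
    (∃ cov, IsLeviCivita g cov ∧ (∃! R, IsCurv cov R) ∧
      ∀ cov', IsLeviCivita g cov' → ∀ Y : Vec n M, cov' Y = cov Y) ∧
    (∃! Ric, IsRic g Ric) ∧ ∃! S, IsScal g S

end

end Vale.Agent.P244I
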