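import Vale.Agent.P244I78.Sec

/-! From the counterexample in charts to the intrinsic statement. -/

set_option maxSynthPendingDepth 3
set_option linter.unusedSectionVars false

namespace Vale.Agent.P244I78

open scoped Manifold ContDiff Topology
open Bundle Filter Set Vale.Agent.P211 Vale.Agent.P211.NN Vale.Agent.P211Z
open Vale.Agent.P244Z Vale.Agent.P244I

noncomputable section

variable {n : ℕ} {M : Type} [TopologicalSpace M] [ChartedSpace (Euc n) M]
  [IsManifold (𝓡 n) ∞ M] {e : OpenPartialHomeomorph M (Euc n)} {x : M}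

/-- the metric as a function -/
def ten (g : Met n M) : Geo.Tensor n M := fun x v w => g.inner x v w

theorem ric_chart [T2Space M] {g : Met n M} {Ric : (x : M) → Tan n x → Tan n x → ℝ}
    (h : IsRic g Ric) (he : e ∈ atlas (Euc n) M) (hx : x ∈ e.source) (i j : Fin n) :
    Ric x (cf e i x) (cf e j x) = Geo.ricci (Geo.inChart (ten g) e) (e x) i j := by
  obtain ⟨cov, R, hc, hR, h⟩ := h
  letI : RiemannianBundle (Tan n : M → Type) := ⟨g.toRiemannianMetric⟩
  rw [h]
  exact ricci_cf ⟨hc.smooth, hc.torsion, hc.metric⟩ he hx (fun u v w => R x u v w)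
    (fun X Y Z => hR X Y Z x) i j _ fun _ => rfl

theorem scal_chart [T2Space M] {g : Met n M} {S : M → ℝ} (h : IsScal g S) (x : M) :
    S x = Geo.scalarCurv (ten g) x := by
  obtain ⟨Ric, A, hR, hA, h⟩ := h
  letI : RiemannianBundle (Tan n : M → Type) := ⟨g.toRiemannianMetric⟩
  have he := chart_mem_atlas (Euc n) x
  have hx := mem_chart_source (Euc n) x
  rw [h]
  exact scalar_cf he hx (A x) _ fun i j => (hA x _ _).trans (ric_chart hR he hx i j)

theorem ric_span {g : Met n M} {Ric : (x : M) → Tan n x → Tan n x → ℝ} (h : IsRic g Ric)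
    (u : Fin n → Tan n x) (a b : Fin n → ℝ) :
    Ric x (∑ i, a i • u i) (∑ j, b j • u j) = ∑ i, ∑ j, a i * b j * Ric x (u i) (u j) := by
  obtain ⟨cov, R, -, -, h⟩ := h
  let L : Tan n x →ₗ[ℝ] Tan n x →ₗ[ℝ] ℝ :=
    (LinearMap.lflip.toLinearMap ∘ₗ (R x).flip).compr₂ (LinearMap.trace ℝ (Tan n x))
  have hL : ∀ v w, Ric x v w = L v w := h x
  simp only [hL, map_sum, map_smul, LinearMap.sum_apply, LinearMap.smul_apply, smul_eq_mul,
    Finset.mul_sum]
  rw [Finset.sum_comm]
  exact Finset.sum_congr rfl fun i _ => Finset.sum_congr rfl fun j _ => by ring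

theorem flow_chart [T2Space M] {g : ℝ → Met n M} {T : ℝ} (h : IsRicciFlow g T) :
    Geo.IsRicciFlow (fun t => ten (g t)) T where
  metric t _ x := ⟨fun u => ((g t).inner x u).toLinearMap.isLinear, (g t).symm x, (g t).pos x⟩
  smooth := chSm_of_secSm (B := fun t => (g t).inner) h.smooth
  flow e he t ht y hy i j := by
    obtain ⟨Ric, hR, hd⟩ := h.flow t ht
    have h1 := hd (e.symm y) (cf e i _) (cf e j _)
    rw [ric_chart hR he (e.map_target hy), e.right_inv hy] at h1
    simp only [inChart_symm he hy]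
    exact h1

theorem flow_of_chart [T2Space M] (hW : WellDefined) {g : ℝ → Geo.Tensor n M} {T : ℝ}
    (hT : 0 < T) (h : Geo.IsRicciFlow g T) :
    ∃ G : ℝ → Met n M, IsRicciFlow G T ∧ ∀ t ∈ Ico 0 T, ten (G t) = g t := by
  obtain ⟨G, h1, h2⟩ := exists_met (S := Ico 0 T) ⟨le_rfl, hT⟩ h.metric h.smooth
  have h3 : ∀ t ∈ Ico 0 T, ten (G t) = g t := fun t ht =>
    funext fun x => funext fun v => funext fun w => h2 t ht x v w
  refine ⟨G, ⟨h1, fun t ht => ?_⟩, h3⟩
  obtain ⟨Ric, hR, -⟩ := (hW n M (G t)).2.1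
  refine ⟨Ric, hR, fun x v w => ?_⟩
  have he := chart_mem_atlas (Euc n) x
  have hx := mem_chart_source (Euc n) x
  generalize chartAt (Euc n) x = e at he hx
  obtain ⟨a, rfl⟩ : ∃ a : Fin n → ℝ, v = ∑ k, a k • cf e k x := ⟨_, span_cf he hx v⟩
  obtain ⟨b, rfl⟩ : ∃ b : Fin n → ℝ, w = ∑ k, b k • cf e k x := ⟨_, span_cf he hx w⟩
  have h4 : ∀ s ∈ Ico 0 T, (G s).inner x (∑ k, a k • cf e k x) (∑ k, b k • cf e k x)
      = ∑ i, ∑ j, a i * b j * Geo.inChart (g s) e (e x) i j := by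
    intro s hs
    rw [bil_span]
    simp only [inChart_eq he hx, h2 s hs]
  have h5 : HasDerivWithinAt (fun s => ∑ i, ∑ j, a i * b j * Geo.inChart (g s) e (e x) i j)
      (∑ i, ∑ j, a i * b j * (-2 * Geo.ricci (Geo.inChart (g t) e) (e x) i j)) (Ico 0 T) t :=
    HasDerivWithinAt.fun_sum fun i _ => HasDerivWithinAt.fun_sum fun j _ =>
      (h.flow e he t ht _ (e.map_source hx) i j).const_mul _
  refine (h5.congr h4 (h4 t ht)).congr_deriv ?_
  rw [ric_span hR, Finset.mul_sum]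
  refine Finset.sum_congr rfl fun i _ => ?_
  rw [Finset.mul_sum]
  refine Finset.sum_congr rfl fun j _ => ?_
  rw [ric_chart hR he hx, h3 t ht]
  ring

theorem not_conj (hW : WellDefined) (h : Geo.Counterexample n) : ¬ Conj n := by
  obtain ⟨M, _, _, _, _, _, _, T, g, hT, hg, ⟨C, hC⟩, hE⟩ := h
  obtain ⟨G, hG, h1⟩ := flow_of_chart hW hT hg
  intro hc
  obtain ⟨ε, hε, G', h2, h3⟩ := hc M T G hT hG ⟨C, fun t ht => by
    obtain ⟨S, hS, -⟩ := (hW n M (G t)).2.2
    exact ⟨S, hS, fun x => by rw [scal_chart hS, h1 t ht]; exact hC t ht x⟩⟩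
  exact hE ⟨ε, hε, _, flow_chart h2, fun t ht => by rw [h3 t ht, h1 t ht]⟩

end

end Vale.Agent.P244I78
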