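import Vale.Agent.P244I78.Chart
import Vale.Agent.P244I78.Defs

/-! Smooth families of bilinear forms: sections and charts. -/

set_option maxSynthPendingDepth 3
set_option linter.unusedSectionVars false

namespace Vale.Agent.P244I78

open scoped Manifold ContDiff Topology
open Bundle Filter Set Vale.Agent.P211 Vale.Agent.P211.NN Vale.Agent.P211Z
open Vale.Agent.P244Z Vale.Agent.P244I

noncomputable section

variable {n : ℕ} {M : Type} [TopologicalSpace M] [ChartedSpace (Euc n) M]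
  [IsManifold (𝓡 n) ∞ M] {e : OpenPartialHomeomorph M (Euc n)} {x : M}

/-- families of fields of bilinear forms -/
abbrev Fam (n : ℕ) (M : Type) [TopologicalSpace M] [ChartedSpace (Euc n) M] : Type :=
  ℝ → (x : M) → Tan n x →L[ℝ] Tan n x →L[ℝ] ℝ

/-- smooth as a map to the bundle -/
abbrev SecSm (B : Fam n M) (S : Set ℝ) : Prop :=
  ContMDiffOn (𝓘(ℝ).prod (𝓡 n)) ((𝓡 n).prod 𝓘(ℝ, Euc n →L[ℝ] Euc n →L[ℝ] ℝ)) ∞
    (fun p : ℝ × M => TotalSpace.mk' (Euc n →L[ℝ] Euc n →L[ℝ] ℝ)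
      (E := fun x : M => Tan n x →L[ℝ] Tan n x →L[ℝ] ℝ) p.2 (B p.1 p.2)) (S ×ˢ univ)

/-- smooth in charts -/
abbrev ChSm (g : ℝ → Geo.Tensor n M) (S : Set ℝ) : Prop :=
  ∀ e ∈ atlas (Euc n) M, ∀ i j, ContDiffOn ℝ ∞
    (fun z : ℝ × Euc n => Geo.inChart (g z.1) e z.2 i j) (S ×ˢ e.target)

theorem inChart_symm (he : e ∈ atlas (Euc n) M) {y : Euc n} (hy : y ∈ e.target)
    (g : Geo.Tensor n M) (i j : Fin n) :
    Geo.inChart g e y i j = g (e.symm y) (cf e i (e.symm y)) (cf e j (e.symm y)) := by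
  rw [cf_eq he hy, cf_eq he hy]
  rfl

theorem chSm_of_secSm {B : Fam n M} {S : Set ℝ} (h : SecSm B S) :
    ChSm (fun t x v w => B t x v w) S := by
  intro e he i j z hz
  have hm : e ∈ IsManifold.maximalAtlas (𝓡 n) ∞ M := IsManifold.subset_maximalAtlas he
  have hx := e.map_target hz.2
  have hv : ∀ k, ContMDiffWithinAt (𝓘(ℝ).prod (𝓡 n)) ((𝓡 n).prod (𝓡 n)) ∞
      (fun p : ℝ × M => TotalSpace.mk' (Euc n) (E := (Tan n : M → Type)) p.2 (cf e k p.2))
      (S ×ˢ univ) (z.1, e.symm z.2) := fun k =>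
    (ContMDiffAt.comp (z.1, e.symm z.2) (sm_cf he hx k) contMDiffAt_snd).contMDiffWithinAt
  have h1 : ContMDiffWithinAt (𝓘(ℝ).prod (𝓡 n)) ((𝓡 n).prod 𝓘(ℝ)) ∞
      (fun p : ℝ × M => TotalSpace.mk' ℝ (E := Bundle.Trivial M ℝ) p.2
        (B p.1 p.2 (cf e i p.2) (cf e j p.2))) (S ×ˢ univ) (z.1, e.symm z.2) :=
    ContMDiffWithinAt.clm_bundle_apply₂ (F₁ := Euc n) (F₂ := Euc n)
      (h _ ⟨hz.1, mem_univ _⟩) (hv i) (hv j)
  simp only [contMDiffWithinAt_totalSpace] at h1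
  have h2 : ContMDiffWithinAt (𝓘(ℝ).prod (𝓡 n)) 𝓘(ℝ) ∞
      (fun p : ℝ × M => B p.1 p.2 (cf e i p.2) (cf e j p.2)) (S ×ˢ univ) (z.1, e.symm z.2) := h1.2
  have h3 : ContMDiffAt 𝓘(ℝ, ℝ × Euc n) (𝓘(ℝ).prod (𝓡 n)) ∞
      (fun q : ℝ × Euc n => (q.1, e.symm q.2)) z :=
    contDiff_fst.contMDiff.contMDiffAt.prodMk (ContMDiffAt.comp z
      ((contMDiffOn_symm_of_mem_maximalAtlas hm).contMDiffAt (e.open_target.mem_nhds hz.2))
      contDiff_snd.contMDiff.contMDiffAt)
  have h4 := (ContMDiffWithinAt.comp z h2 (h3.contMDiffWithinAt (s := S ×ˢ e.target))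
    fun q hq => mk_mem_prod hq.1 (mem_univ _)).contDiffWithinAt
  exact h4.congr (fun q hq => inChart_symm he hq.2 _ i j) (inChart_symm he hz.2 _ i j)

theorem bil_span (B : Tan n x →L[ℝ] Tan n x →L[ℝ] ℝ) (u : Fin n → Tan n x) (a b : Fin n → ℝ) :
    B (∑ i, a i • u i) (∑ j, b j • u j) = ∑ i, ∑ j, a i * b j * B (u i) (u j) := by
  simp only [map_sum, map_smul, ContinuousLinearMap.sum_apply, smul_apply, smul_eq_mul,
    Finset.mul_sum]
  rw [Finset.sum_comm]
  exact Finset.sum_congr rfl fun i _ => Finset.sum_congr rfl fun j _ => by ring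

theorem triv_symm (a : M) {z : M} (hz : z ∈ (chartAt (Euc n) a).source) (v : Euc n) :
    (trivializationAt (Euc n) (Tan n : M → Type) a).symm z v
      = ∑ k, v k • cf (chartAt (Euc n) a) k z := by
  have h := span_cf (chart_mem_atlas (Euc n) a) hz
    ((trivializationAt (Euc n) (Tan n : M → Type) a).symm z v)
  have h1 : dm (Euc n) (chartAt (Euc n) a) z
      ((trivializationAt (Euc n) (Tan n : M → Type) a).symm z v) = v := by
    have h2 := TangentBundle.continuousLinearMapAt_trivializationAt (I := 𝓡 n) (𝕜 := ℝ) hz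
    have h3 := (trivializationAt (Euc n) (Tan n : M → Type) a).continuousLinearMapAt_symmL
      (R := ℝ) hz v
    rw [h2, Trivialization.symmL_apply (R := ℝ) _ hz] at h3
    exact h3
  rw [h1] at h
  exact h

theorem secSm_of_chSm {B : Fam n M} {g : ℝ → Geo.Tensor n M} {S : Set ℝ} (h : ChSm g S)
    (hB : ∀ t ∈ S, ∀ x v w, B t x v w = g t x v w) : SecSm B S := by
  rintro ⟨t, a⟩ hp
  rw [contMDiffWithinAt_hom_bundle]
  refine ⟨contMDiffAt_snd.contMDiffWithinAt, ?_⟩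
  let e := chartAt (Euc n) a
  have he : e ∈ atlas (Euc n) M := chart_mem_atlas _ a
  have ha : a ∈ e.source := mem_chart_source _ a
  let c : Fin n → Fin n → Euc n →L[ℝ] Euc n →L[ℝ] ℝ := fun i j =>
    (EuclideanSpace.proj i : Euc n →L[ℝ] ℝ).smulRight (EuclideanSpace.proj j : Euc n →L[ℝ] ℝ)
  have h1 : ContMDiffAt (𝓘(ℝ).prod (𝓡 n)) 𝓘(ℝ, ℝ × Euc n) ∞
      (fun p : ℝ × M => (p.1, e p.2)) (t, a) :=
    contMDiffAt_fst.prodMk_space (ContMDiffAt.comp (t, a) (ld he ha).contMDiffAt contMDiffAt_snd)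
  have hN : (univ : Set ℝ) ×ˢ e.source ∈ 𝓝 (t, a) :=
    prod_mem_nhds univ_mem (e.open_source.mem_nhds ha)
  have h2 : ∀ i j, ContMDiffWithinAt (𝓘(ℝ).prod (𝓡 n)) 𝓘(ℝ) ∞
      (fun p : ℝ × M => Geo.inChart (g p.1) e (e p.2) i j) (S ×ˢ univ) (t, a) := by
    intro i j
    have h3 := ContMDiffWithinAt.comp (t, a)
      (h e he i j (t, e a) ⟨hp.1, e.map_source ha⟩).contMDiffWithinAt
      (h1.contMDiffWithinAt (s := (S ×ˢ univ) ∩ (univ ×ˢ e.source)))
      fun q hq => mk_mem_prod hq.1.1 (e.map_source hq.2.2)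
    exact (contMDiffWithinAt_inter hN).mp h3
  have h4 : ContMDiffWithinAt (𝓘(ℝ).prod (𝓡 n)) 𝓘(ℝ, Euc n →L[ℝ] Euc n →L[ℝ] ℝ) ∞
      (fun p : ℝ × M => ∑ i, ∑ j, Geo.inChart (g p.1) e (e p.2) i j • c i j)
      (S ×ˢ univ) (t, a) :=
    contMDiffWithinAt_finset_sum fun i _ => contMDiffWithinAt_finset_sum fun j _ =>
      (h2 i j).smul contMDiffWithinAt_const
  refine h4.congr_of_eventuallyEq_of_mem ?_ hp
  filter_upwards [self_mem_nhdsWithin, mem_nhdsWithin_of_mem_nhds hN] with q hq hq'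
  have hz : q.2 ∈ e.source := hq'.2
  refine ContinuousLinearMap.ext fun v => ContinuousLinearMap.ext fun w => ?_
  refine (inCoordinates_apply_eq₂ (E₃ := Bundle.Trivial M ℝ) hz hz (mem_univ _)).trans ?_
  rw [triv_symm a hz, triv_symm a hz, bil_span]
  have h5 : ∀ r : ℝ, (trivializationAt ℝ (Bundle.Trivial M ℝ) a).linearMapAt ℝ q.2 r = r := by
    intro r
    simp
  refine (h5 _).trans ?_
  simp only [ContinuousLinearMap.sum_apply, smul_apply, smul_eq_mul]
  refine Finset.sum_congr rfl fun i _ => Finset.sum_congr rfl fun j _ => ?_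
  rw [hB q.1 hq.1, inChart_eq he hz, mul_comm]
  rfl

/-! ### metrics -/

theorem bdd {B : Euc n →L[ℝ] Euc n →L[ℝ] ℝ} (h : ∀ v, v ≠ 0 → 0 < B v v) :
    Bornology.IsVonNBounded ℝ {v | B v v < 1} := by
  obtain ⟨c, hc, h1⟩ := (isCompact_sphere (0 : Euc n) 1).exists_forall_le' (f := fun v => B v v)
    (B.continuous₂.comp (continuous_id.prodMk continuous_id)).continuousOn
    fun v hv => h v (ne_zero_of_mem_unit_sphere ⟨v, hv⟩)
  rw [NormedSpace.isVonNBounded_iff, isBounded_iff_forall_norm_le]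
  refine ⟨√(1 / c), fun v (hv : B v v < 1) => Real.le_sqrt_of_sq_le ?_⟩
  rcases eq_or_ne v 0 with rfl | h0
  · simp [hc.le]
  · have h2 := norm_pos_iff.2 h0
    have h3 := h1 (‖v‖⁻¹ • v) (by simp [norm_smul, h2.ne'])
    simp only [map_smul, smul_apply, smul_eq_mul] at h3
    rw [← mul_assoc, ← mul_inv, le_inv_mul_iff₀ (by positivity)] at h3
    rw [le_div_iff₀ hc, sq]
    exact h3.trans hv.le

open Classical in
/-- the bilinear form of an inner product -/
def bil (b : Euc n → Euc n → ℝ) : Euc n →L[ℝ] Euc n →L[ℝ] ℝ :=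
  if h : Geo.IsInner b then
    LinearMap.toContinuousLinearMap (LinearMap.toContinuousLinearMap.toLinearMap ∘ₗ
      LinearMap.mk₂ ℝ b
        (fun u u' v => by rw [h.symm, (h.lin v).map_add, h.symm v, h.symm v])
        (fun r u v => by rw [h.symm, (h.lin v).map_smul, h.symm v])
        (fun u => (h.lin u).map_add) fun r u => (h.lin u).map_smul r)
  else 0

theorem bil_apply {b : Euc n → Euc n → ℝ} (h : Geo.IsInner b) (v w : Euc n) :
    bil b v w = b v w := by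
  unfold bil
  rw [dif_pos h]
  rfl

theorem exists_met {g : ℝ → Geo.Tensor n M} {S : Set ℝ} (h0 : (0 : ℝ) ∈ S)
    (hm : ∀ t ∈ S, Geo.IsMetric (g t)) (hs : ChSm g S) :
    ∃ G : ℝ → Met n M, SecSm (fun t => (G t).inner) S ∧
      ∀ t ∈ S, ∀ x v w, (G t).inner x v w = g t x v w := by
  classical
  let B : Fam n M := fun t x => bil (g t x)
  have hB : ∀ t ∈ S, ∀ x v w, B t x v w = g t x v w := fun t ht x => bil_apply (hm t ht x)
  have h1 := secSm_of_chSm hs hB
  let m : ∀ t ∈ S, Met n M := fun t ht =>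
    { inner := B t
      symm := fun x v w => by rw [hB t ht, hB t ht, (hm t ht x).symm]
      pos := fun x v hv => by rw [hB t ht]; exact (hm t ht x).pos v hv
      isVonNBounded := fun x => bdd (B := bil (g t x)) fun v hv => by
        rw [bil_apply (hm t ht x)]; exact (hm t ht x).pos v hv
      contMDiff := h1.comp_contMDiff (f := fun x : M => (t, x))
        (contMDiff_const.prodMk contMDiff_id) fun x => ⟨ht, mem_univ _⟩ }
  have hG : ∀ t ∈ S, ∀ x v w, (if ht : t ∈ S then m t ht else m 0 h0).inner x v w = g t x v w := by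
    intro t ht x v w
    rw [dif_pos ht]
    exact hB t ht x v w
  exact ⟨fun t => if ht : t ∈ S then m t ht else m 0 h0, secSm_of_chSm hs hG, hG⟩

end

end Vale.Agent.P244I78
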