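import Vale.Agent.P211W98.LC
import Vale.Agent.P244I78.Defs

/-! Existence and uniqueness of the connection and of the curvature tensors. -/

set_option maxSynthPendingDepth 3
set_option linter.unusedSectionVars false

namespace Vale.Agent.P244I78

open scoped Manifold ContDiff Topology
open Bundle Filter VectorField Vale.Agent.P211 Vale.Agent.P244I

noncomputable section

variable {n : ℕ} {M : Type} [TopologicalSpace M] [ChartedSpace (Euc n) M]
  [IsManifold (𝓡 n) ∞ M] [T2Space M]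

section

variable [RiemannianBundle fun p : M => TangentSpace (𝓡 n) p]
  [IsContMDiffRiemannianBundle (𝓡 n) ∞ (Euc n) fun p : M => TangentSpace (𝓡 n) p]

theorem tens {Ψ : VF (Euc n) M → VF (Euc n) M} (ha : ∀ X Y, Ψ (X + Y) = Ψ X + Ψ Y)
    (hs : ∀ (a : SF (Euc n) M) X, Ψ (a • X) = a • Ψ X) {x : M} {X Y : VF (Euc n) M}
    (h : X x = Y x) : Ψ X x = Ψ Y x := by
  refine ext_inner_right ℝ fun w => ?_
  obtain ⟨W, rfl⟩ := exists_ext (E := Euc n) x w
  let Φ : VF (Euc n) M →ₗ[SF (Euc n) M] SF (Euc n) M :=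
    { toFun := fun X => gVF (Ψ X) W
      map_add' := fun X Y => by
        rw [ha]
        ext y
        exact inner_add_left (𝕜 := ℝ) (Ψ X y) (Ψ Y y) (W y)
      map_smul' := fun a X => by
        rw [hs]
        ext y
        exact real_inner_smul_left (Ψ X y) (W y) (a y) }
  have h1 := lin_ptwise Φ (Z := X - Y) (x := x) (sub_eq_zero.mpr h)
  rw [map_sub] at h1
  exact sub_eq_zero.mp h1

theorem exists_tri {T : VF (Euc n) M → VF (Euc n) M → VF (Euc n) M → VF (Euc n) M}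
    (a1 : ∀ X X' Y Z, T (X + X') Y Z = T X Y Z + T X' Y Z)
    (a2 : ∀ X Y Y' Z, T X (Y + Y') Z = T X Y Z + T X Y' Z)
    (a3 : ∀ X Y Z Z', T X Y (Z + Z') = T X Y Z + T X Y Z')
    (s1 : ∀ (a : SF (Euc n) M) X Y Z, T (a • X) Y Z = a • T X Y Z)
    (s2 : ∀ (a : SF (Euc n) M) X Y Z, T X (a • Y) Z = a • T X Y Z)
    (s3 : ∀ (a : SF (Euc n) M) X Y Z, T X Y (a • Z) = a • T X Y Z) :
    ∃ R : Curv n M, ∀ (X Y Z : VF (Euc n) M) x, R x (X x) (Y x) (Z x) = T X Y Z x := by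
  choose s hs using fun x : M => exists_ext (E := Euc n) x
  obtain ⟨r, key⟩ : ∃ r : (x : M) → Tan n x → Tan n x → Tan n x → Tan n x,
      ∀ (X Y Z : VF (Euc n) M) x, r x (X x) (Y x) (Z x) = T X Y Z x :=
    ⟨fun x u v w => T (s x u) (s x v) (s x w) x, fun X Y Z x =>
      (tens (Ψ := fun X => T X _ _) (fun _ _ => a1 ..) (fun _ _ => s1 ..) (hs x _)).trans
        ((tens (Ψ := fun Y => T X Y _) (fun _ _ => a2 ..) (fun _ _ => s2 ..) (hs x _)).trans
          (tens (Ψ := fun Z => T X Y Z) (fun _ _ => a3 ..) (fun _ _ => s3 ..) (hs x _)))⟩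
  have ex : ∀ x (u : Tan n x), ∃ X : VF (Euc n) M, X x = u := fun x u => ⟨_, hs x u⟩
  let k : ℝ → SF (Euc n) M := fun c => ContMDiffMap.const c
  refine ⟨fun x => LinearMap.mk₂ ℝ (fun u v =>
    { toFun := r x u v, map_add' := fun w w' => ?_, map_smul' := fun c w => ?_ })
    (fun u u' v => LinearMap.ext fun w => ?_) (fun c u v => LinearMap.ext fun w => ?_)
    (fun u v v' => LinearMap.ext fun w => ?_) (fun c u v => LinearMap.ext fun w => ?_), key⟩
  · obtain ⟨X, rfl⟩ := ex x u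
    obtain ⟨Y, rfl⟩ := ex x v
    obtain ⟨Z, rfl⟩ := ex x w
    obtain ⟨Z', rfl⟩ := ex x w'
    refine (key X Y (Z + Z') x).trans ?_
    rw [a3, key, key]
    rfl
  · obtain ⟨X, rfl⟩ := ex x u
    obtain ⟨Y, rfl⟩ := ex x v
    obtain ⟨Z, rfl⟩ := ex x w
    refine (key X Y (k c • Z) x).trans ?_
    rw [s3, key]
    rfl
  · obtain ⟨X, rfl⟩ := ex x u
    obtain ⟨X', rfl⟩ := ex x u'
    obtain ⟨Y, rfl⟩ := ex x v
    obtain ⟨Z, rfl⟩ := ex x w
    refine (key (X + X') Y Z x).trans ?_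
    rw [a1]
    exact (congrArg₂ (· + ·) (key X Y Z x) (key X' Y Z x)).symm
  · obtain ⟨X, rfl⟩ := ex x u
    obtain ⟨Y, rfl⟩ := ex x v
    obtain ⟨Z, rfl⟩ := ex x w
    refine (key (k c • X) Y Z x).trans ?_
    rw [s1]
    exact (congrArg (c • ·) (key X Y Z x)).symm
  · obtain ⟨X, rfl⟩ := ex x u
    obtain ⟨Y, rfl⟩ := ex x v
    obtain ⟨Y', rfl⟩ := ex x v'
    obtain ⟨Z, rfl⟩ := ex x w
    refine (key X (Y + Y') Z x).trans ?_
    rw [a2]
    exact (congrArg₂ (· + ·) (key X Y Z x) (key X Y' Z x)).symm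
  · obtain ⟨X, rfl⟩ := ex x u
    obtain ⟨Y, rfl⟩ := ex x v
    obtain ⟨Z, rfl⟩ := ex x w
    refine (key X (k c • Y) Z x).trans ?_
    rw [s2]
    exact (congrArg (c • ·) (key X Y Z x)).symm

theorem exists_curv {cov : Conn n M} (hc : P211W.IsLeviCivita cov) : ∃ R, IsCurv cov R := by
  have hl : IsLC cov := ⟨hc.smooth, fun X Y x =>
    (CovariantDerivative.torsion_eq_zero_iff ..).mp hc.torsion (X.mdiff x) (Y.mdiff x),
    fun X Y Z x => hc.metric.mvfderiv_inner_eq X (Y.mdiff x) (Z.mdiff x)⟩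
  obtain ⟨R, hR⟩ := exists_tri (lcOf hl).R_add1 (lcOf hl).R_add2 (lcOf hl).R_add3
    (lcOf hl).R_smul1 (lcOf hl).R_smul2 (lcOf hl).R_smul3
  refine ⟨R, fun X Y Z x => (hR X Y Z x).trans ?_⟩
  rw [← brk_coe hl X Y]
  rfl

end

theorem curv_unique {cov cov' : Conn n M} (hs : cov.ContMDiffCovariantDerivative ∞)
    (h : ∀ Y : Vec n M, cov' Y = cov Y) {R R' : Curv n M} (hR : IsCurv cov R)
    (hR' : IsCurv cov' R') : R' = R := by
  funext x
  ext u v w
  obtain ⟨X, rfl⟩ := exists_ext (E := Euc n) x u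
  obtain ⟨Y, rfl⟩ := exists_ext (E := Euc n) x v
  obtain ⟨Z, rfl⟩ := exists_ext (E := Euc n) x w
  rw [hR, hR', h Z]
  exact congrArg₂ (fun a b => a - b - _) (congrArg (fun f => f x (X x)) (h (nabVF cov hs Y Z)))
    (congrArg (fun f => f x (Y x)) (h (nabVF cov hs X Z)))

theorem lc_uniq {g : Met n M} {cov cov' : Conn n M} (h : IsLeviCivita g cov)
    (h' : IsLeviCivita g cov') (Y : Vec n M) : cov' Y = cov Y := by
  letI : RiemannianBundle (Tan n : M → Type) := ⟨g.toRiemannianMetric⟩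
  exact funext fun x => P211W.lc_unique ⟨h'.smooth, h'.torsion, h'.metric⟩
    ⟨h.smooth, h.torsion, h.metric⟩ (VF.mdiff Y x)

theorem ric_unique {g : Met n M} {Ric Ric' : (x : M) → Tan n x → Tan n x → ℝ} (h : IsRic g Ric)
    (h' : IsRic g Ric') : Ric' = Ric := by
  obtain ⟨cov, R, h1, h2, h3⟩ := h
  obtain ⟨cov', R', h1', h2', h3'⟩ := h'
  funext x v w
  rw [h3, h3', curv_unique h1.smooth (lc_uniq h1 h1') h2 h2']

theorem wellDefined : WellDefined := by
  intro n M _ _ _ _ g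
  letI : RiemannianBundle (Tan n : M → Type) := ⟨g.toRiemannianMetric⟩
  obtain ⟨cov, hc⟩ := P211W.exists_lc (E := Euc n) (M := M)
  have hl : IsLeviCivita g cov := ⟨hc.smooth, hc.torsion, hc.metric⟩
  obtain ⟨R, hR⟩ := exists_curv hc
  have hRic : IsRic g fun x v w => LinearMap.trace ℝ _ (((R x).flip v).flip w) :=
    ⟨cov, R, hl, hR, fun _ _ _ => rfl⟩
  refine ⟨⟨cov, hl, ⟨R, hR, fun R' hR' => curv_unique hc.smooth (fun _ => rfl) hR hR'⟩,
    fun cov' h' => lc_uniq hl h'⟩, ⟨_, hRic, fun _ h => ric_unique hRic h⟩, ?_⟩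
  have hA : ∀ x : M, ∃ A : Tan n x →ₗ[ℝ] Tan n x, ∀ v w,
      inner ℝ (A v) w = LinearMap.trace ℝ _ (((R x).flip v).flip w) := by
    intro x
    haveI : FiniteDimensional ℝ (Tan n x) := inferInstanceAs (FiniteDimensional ℝ (Euc n))
    haveI := P211W.complT (E := Euc n) x
    let L : Tan n x →ₗ[ℝ] Tan n x →ₗ[ℝ] ℝ :=
      (LinearMap.lflip.toLinearMap ∘ₗ (R x).flip).compr₂ (LinearMap.trace ℝ (Tan n x))
    let B : Tan n x →L[ℝ] Tan n x →L[ℝ] ℝ :=
      LinearMap.toContinuousLinearMap (LinearMap.toContinuousLinearMap.toLinearMap ∘ₗ L)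
    exact ⟨(InnerProductSpace.continuousLinearMapOfBilin (𝕜 := ℝ) B).toLinearMap,
      fun v w => InnerProductSpace.continuousLinearMapOfBilin_apply B v w⟩
  choose A hA using hA
  refine ⟨fun x => LinearMap.trace ℝ _ (A x), ⟨_, A, hRic, hA, fun _ => rfl⟩, ?_⟩
  rintro S ⟨Ric, A', h1, h2, h3⟩
  funext x
  rw [h3]
  refine congrArg _ (LinearMap.ext fun v => ext_inner_right ℝ fun w => ?_)
  rw [hA]
  exact (h2 x v w).trans (by rw [ric_unique hRic h1])

end

end Vale.Agent.P244I78
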